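import Vale.Agent.P070ZF.FC

/-!
# The rules of the functional calculus
-/

set_option linter.unusedSectionVars false

namespace Vale.Agent.P070Z

open Vale.Agent.P129B

universe v

variable {N : Type v} [ZM N] {R : Type*} [Field R] [LinearOrder R] [IsStrictOrderedRing R]
  [Coded N R] [RF N R]
  {A : Type*} [Ring A] [Algebra R A] [PartialOrder A] [Nm A R] [OA R A] [Coded N A] [OAN N R A]

variable {k : A} {a b : R} {f g : R → R} {P Q : R → Prop}

theorem Sp.mono (h : Sp k P) (H : ∀ t, P t → Q t) : Sp k Q := by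
  obtain ⟨a, b, h1, h2⟩ := h
  exact ⟨a, b, h1, fun t ha hb => H t (h2 t ha hb)⟩

theorem Bd.sp (h : Bd k a b) : Sp k (fun t => a ≤ t ∧ t ≤ b) := ⟨a, b, h, fun _ h1 h2 => ⟨h1, h2⟩⟩

theorem Bd.widen (h : Bd k a b) {c d : R} (hc : c ≤ a) (hd : b ≤ d) : Bd k c d :=
  ⟨(hc.trans_lt h.lt).trans_le hd, (OA.sc_mono hc).trans h.lo, h.hi.trans (OA.sc_mono hd)⟩

theorem bd_of_nonneg (hk : 0 ≤ k) {c : R} (hc : 0 < c) (h : nm k ≤ c) : Bd k 0 c :=
  ⟨hc, by rwa [zero_smul], (OA.le_nm k hk).trans (OA.sc_mono h)⟩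

theorem sp_nonneg (hk : 0 ≤ k) : Sp k (fun t : R => 0 ≤ t) :=
  (bd_of_nonneg hk (c := nm k + 1) (by linarith [nm_nonneg k]) (by linarith)).sp.mono
    fun _ h => h.1

theorem fc_congr (hf : DefF N f) (uf : UC f) (hg : DefF N g) (ug : UC g)
    (h : Sp k (fun t => f t = g t)) : fc N f k = fc N g k := by
  obtain ⟨a, b, hb, h⟩ := h
  refine (tt_fc hf uf hb).uniq ((funext fun n => ?_ : bop (N := N) a b g k = bop a b f k) ▸
    tt_fc hg ug hb)
  exact wsum_congr (by fun_prop) (by fun_prop) (by fun_prop) fun i hi =>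
    (h _ (bpt_mem hb.lt hi).1 (bpt_mem hb.lt hi).2).symm

theorem fc_mono (hf : DefF N f) (uf : UC f) (hg : DefF N g) (ug : UC g)
    (h : Sp k (fun t => f t ≤ g t)) : fc N f k ≤ fc N g k := by
  obtain ⟨a, b, hb, h⟩ := h
  exact OA.tt_le (tt_fc hf uf hb) (tt_fc hg ug hb) fun n =>
    wsum_mono (by fun_prop) (by fun_prop) (by fun_prop) (hb.res n).pos fun i hi =>
      h _ (bpt_mem hb.lt hi).1 (bpt_mem hb.lt hi).2

variable (N) in
theorem fc_const (h : Sp k P) (c : R) : fc N (fun _ => c) k = c • (1 : A) := by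
  obtain ⟨a, b, hb, -⟩ := h
  refine (tt_fc (by fun_prop) (UC.const c) hb).uniq
    ((funext fun n => ?_ : (fun _ => c • (1 : A)) = bop (N := N) a b (fun _ => c) k) ▸ OA.tt_const _)
  exact ((hb.res n).const c).symm

variable (N) in
theorem fc_one (h : Sp k P) : fc N (fun _ => (1 : R)) k = 1 := by rw [fc_const N h, one_smul]

variable (N) in
theorem fc_zero (h : Sp k P) : fc N (fun _ => (0 : R)) k = 0 := by rw [fc_const N h, zero_smul]

variable (N) in
theorem fc_id (h : Sp k P) : fc N (fun t : R => t) k = k := by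
  obtain ⟨a, b, hb, -⟩ := h
  refine (tt_fc (by fun_prop) UC.id hb).uniq
    ((funext fun n => ?_ : (fun _ => k) = bop (N := N) a b (fun t => t) k) ▸ OA.tt_const _)
  exact (hb.res n).mean.symm

theorem fc_add (hf : DefF N f) (uf : UC f) (hg : DefF N g) (ug : UC g) (h : Sp k P) :
    fc N (fun t => f t + g t) k = fc N f k + fc N g k := by
  obtain ⟨a, b, hb, -⟩ := h
  refine (tt_fc (by fun_prop) (uf.add ug) hb).uniq ((funext fun n => ?_ :
    (fun n => bop a b f k n + bop a b g k n) = bop (N := N) a b (fun t => f t + g t) k) ▸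
      OA.tt_add (tt_fc hf uf hb) (tt_fc hg ug hb))
  exact (wsum_add (by fun_prop) (by fun_prop) (by fun_prop)).symm

theorem fc_smul (c : R) (hf : DefF N f) (uf : UC f) (h : Sp k P) :
    fc N (fun t => c * f t) k = c • fc N f k := by
  obtain ⟨a, b, hb, -⟩ := h
  refine (tt_fc (by fun_prop) ((UC.const c).mul uf) hb).uniq ((funext fun n => ?_ :
    (fun n => c • bop a b f k n) = bop (N := N) a b (fun t => c * f t) k) ▸
      OA.tt_smul c (tt_fc hf uf hb))
  exact (wsum_mul c (by fun_prop) (by fun_prop)).symm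

theorem fc_mul (hf : DefF N f) (uf : UC f) (hg : DefF N g) (ug : UC g) (h : Sp k P) :
    fc N (fun t => f t * g t) k = fc N f k * fc N g k := by
  obtain ⟨a, b, hb, -⟩ := h
  refine (tt_fc (by fun_prop) (uf.mul ug) hb).uniq
    (OA.tt_close (OA.tt_mul (tt_fc hf uf hb) (tt_fc hg ug hb)) fun ε hε => ?_)
  obtain ⟨n, hn⟩ := bop_mul_close hf uf hg ug hb hε
  exact ⟨n, fun j hj => by rw [nm_sub_rev]; exact hn j hj⟩

theorem fc_neg (hf : DefF N f) (uf : UC f) (h : Sp k P) : fc N (fun t => -f t) k = -fc N f k := by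
  have := fc_smul (-1) hf uf h
  simpa only [neg_one_mul, neg_smul, one_smul] using this

theorem fc_sub (hf : DefF N f) (uf : UC f) (hg : DefF N g) (ug : UC g) (h : Sp k P) :
    fc N (fun t => f t - g t) k = fc N f k - fc N g k := by
  simp only [sub_eq_add_neg]
  rw [fc_add hf uf (by fun_prop) ug.neg h, fc_neg hg ug h]

theorem fc_id_mul (hf : DefF N f) (uf : UC f) (h : Sp k P) :
    fc N (fun t => t * f t) k = k * fc N f k := by
  rw [fc_mul (f := fun t => t) (by fun_prop) UC.id hf uf h, fc_id N h]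

theorem fc_mul_id (hf : DefF N f) (uf : UC f) (h : Sp k P) :
    fc N (fun t => f t * t) k = fc N f k * k := by
  rw [fc_mul (g := fun t => t) hf uf (by fun_prop) UC.id h, fc_id N h]

theorem fc_nonneg (hf : DefF N f) (uf : UC f) (h : Sp k (fun t => 0 ≤ f t)) : 0 ≤ fc N f k := by
  rw [← fc_zero N h]; exact fc_mono (by fun_prop) (UC.const 0) hf uf h

theorem fc_le_sc (hf : DefF N f) (uf : UC f) {c : R} (h : Sp k (fun t => f t ≤ c)) :
    fc N f k ≤ c • (1 : A) := by
  rw [← fc_const N h]; exact fc_mono hf uf (by fun_prop) (UC.const c) h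

theorem sc_le_fc (hf : DefF N f) (uf : UC f) {c : R} (h : Sp k (fun t => c ≤ f t)) :
    c • (1 : A) ≤ fc N f k := by
  rw [← fc_const N h]; exact fc_mono (by fun_prop) (UC.const c) hf uf h

theorem nm_fc_le (hf : DefF N f) (uf : UC f) {c : R} (h : Sp k (fun t => |f t| ≤ c)) :
    nm (fc N f k) ≤ c := by
  refine OA.nm_le _ _ ?_ ?_ (fc_le_sc hf uf (h.mono fun _ h => (abs_le.1 h).2))
  · obtain ⟨a, b, hb, h⟩ := h
    exact (abs_nonneg _).trans (h a le_rfl hb.lt.le)
  · rw [← neg_smul]; exact sc_le_fc hf uf (h.mono fun _ h => (abs_le.1 h).1)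

theorem sp_fc (hf : DefF N f) (uf : UC f) (h : Sp k P) : Sp (fc N f k) (fun _ : R => True) := by
  obtain ⟨a, b, hb, -⟩ := h
  obtain ⟨B, hB, H⟩ := uf.bdd (|a| + |b|)
  have h1 : Sp k (fun t => |f t| ≤ B) := ⟨a, b, hb, fun t h1 h2 => H t (abs_le.2
    ⟨by linarith [neg_abs_le a, abs_nonneg b], by linarith [le_abs_self b, abs_nonneg a]⟩)⟩
  exact ⟨-B, B + 1, ⟨by linarith, sc_le_fc hf uf (h1.mono fun _ h => (abs_le.1 h).1),
    fc_le_sc hf uf (h1.mono fun _ h => by linarith [(abs_le.1 h).2])⟩, fun _ _ _ => trivial⟩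

/-- Closed definable relations that are compatible with the algebra operations are preserved. -/
theorem fc_rel {B : Type*} [Ring B] [Algebra R B] [PartialOrder B] [Nm B R] [OA R B] [Coded N B]
    [OAN N R B] {S : A → B → Prop} (hS : DefF N (fun p : A × B => S p.1 p.2)) (h1 : S 1 1)
    (hadd : ∀ x y x' y', S x y → S x' y' → S (x + x') (y + y'))
    (hmul : ∀ x y x' y', S x y → S x' y' → S (x * x') (y * y'))
    (hsmul : ∀ (c : R) x y, S x y → S (c • x) (c • y))
    (hcl : ∀ x y, (∀ ε : R, 0 < ε → ∃ x' y', S x' y' ∧ nm (x - x') < ε ∧ nm (y - y') < ε) →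
      S x y) {l : B} (hk : Sp k P) (hl : Sp l Q) (hkl : S k l) (hf : DefF N f) (uf : UC f) :
    S (fc N f k) (fc N f l) := by
  obtain ⟨a, b, hb, -⟩ := hk
  obtain ⟨c, d, hd, -⟩ := hl
  replace hb := hb.widen (min_le_left a c) (le_max_left b d)
  replace hd := hd.widen (min_le_right a c) (le_max_right b d)
  generalize min a c = a' at hb hd
  generalize max b d = b' at hb hd
  have h0 : S 0 0 := by simpa using hsmul 0 1 1 h1
  have hsub : ∀ x y x' y', S x y → S x' y' → S (x - x') (y - y') := fun x y x' y' h h' => by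
    simpa [sub_eq_add_neg] using hadd _ _ _ _ h (hsmul (-1) _ _ h')
  have hx := hsmul (b' - a')⁻¹ _ _ (hsub _ _ _ _ hkl (hsmul a' _ _ h1))
  have hS' : ∀ {α : Type v} [Coded N α] {u : α → A} {w : α → B}, DefF N u → DefF N w →
      DefF N (fun z => S (u z) (w z)) := fun hu hw => hS.comp2 hu hw
  have hbop : ∀ n : NN N, S (bop a' b' f k n) (bop a' b' f l n) := fun n => by
    unfold bop
    generalize (b' - a')⁻¹ • (k - a' • (1 : A)) = x at hx
    generalize (b' - a')⁻¹ • (l - a' • (1 : B)) = y at hx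
    have e : ∀ m i : NN N, S (bern N x m i) (bern N y m i) := by
      refine NN.ind (DefF.allT (hS' (by fun_prop) (by fun_prop))) (fun i => ?_) fun m ih i => ?_
      · rw [bern_zero, bern_zero]; split_ifs; exacts [h1, h0]
      · rw [bern_succ, bern_succ]
        refine hadd _ _ _ _ (hmul _ _ _ _ (hsub _ _ _ _ h1 hx) (ih i)) (hmul _ _ _ _ hx ?_)
        split_ifs; exacts [h0, ih _]
    generalize n + 1 + 1 = m
    unfold wsum
    refine NN.ind (P := fun m => S (isum (fun i => f (bpt a' b' n i) • bern N x (n + 1) i) m)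
      (isum (fun i => f (bpt a' b' n i) • bern N y (n + 1) i) m))
      (hS' (by fun_prop) (by fun_prop)) (by simpa using h0) (fun m ih => ?_) m
    rw [isum_succ (by fun_prop), isum_succ (by fun_prop)]
    exact hadd _ _ _ _ ih (hsmul _ _ _ (e _ _))
  refine hcl _ _ fun ε hε => ?_
  obtain ⟨n, hn⟩ := tt_fc hf uf hb ε hε
  obtain ⟨m, hm⟩ := tt_fc hf uf hd ε hε
  refine ⟨_, _, hbop (max n m), ?_, ?_⟩
  · rw [nm_sub_rev]; exact hn _ (le_max_left _ _)
  · rw [nm_sub_rev]; exact hm _ (le_max_right _ _)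

/-- Closed definable subalgebras containing `k` contain `fc f k`. -/
theorem fc_ind {S : A → Prop} (hS : DefF N S) (h1 : S 1) (hadd : ∀ x y, S x → S y → S (x + y))
    (hmul : ∀ x y, S x → S y → S (x * y)) (hsmul : ∀ (c : R) x, S x → S (c • x))
    (hcl : Cld {x | S x}) (hk : Sp k P) (h : S k) (hf : DefF N f) (uf : UC f) : S (fc N f k) :=
  fc_rel (B := A) (S := fun x _ => S x) (by fun_prop) h1 (fun _ _ _ _ => hadd _ _)
    (fun _ _ _ _ => hmul _ _) (fun c _ _ => hsmul c _)
    (fun _ _ H => hcl fun ε hε => by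
      obtain ⟨x, -, h1, h2, -⟩ := H ε hε
      exact ⟨x, h1, h2⟩) hk hk h hf uf

theorem OA.cld_commute (y : A) : Cld {x : A | Commute x y} := by
  have : Cld {x : A | x * y - y * x = 0} := cld_eq_zero (C := 2 * nm y) fun a b => by
    rw [show a * y - y * a - (b * y - y * b) = (a - b) * y - y * (a - b) by noncomm_ring]
    linarith [nm_sub_le ((a - b) * y) (y * (a - b)), OA.nm_mul (a - b) y, OA.nm_mul y (a - b),
      mul_comm (nm (a - b)) (nm y)]
  simp only [sub_eq_zero] at this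
  exact this

theorem fc_commute (hf : DefF N f) (uf : UC f) (hk : Sp k P) {y : A} (h : Commute k y) :
    Commute (fc N f k) y :=
  fc_ind (S := fun x => Commute x y) (by fun_prop) (Commute.one_left y)
    (fun _ _ => Commute.add_left) (fun _ _ => Commute.mul_left) (fun c _ h => h.smul_left c)
    (OA.cld_commute y) hk h hf uf

/-- Intertwining: `u k = l u` implies `u f(k) = f(l) u`. -/
theorem fc_intertwine (hf : DefF N f) (uf : UC f) {l u : A} (hk : Sp k P) (hl : Sp l Q)
    (h : u * k = l * u) : u * fc N f k = fc N f l * u :=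
  fc_rel (S := fun x y => u * x = y * u) (by fun_prop) (by simp)
    (fun _ _ _ _ h1 h2 => by rw [mul_add, add_mul, h1, h2])
    (fun _ _ _ _ h1 h2 => by rw [← mul_assoc, h1, mul_assoc, h2, mul_assoc])
    (fun _ _ _ h1 => by rw [mul_smul_comm, smul_mul_assoc, h1])
    (fun x y H => eq_of_forall_nm_sub_le fun ε hε => by
      have hu := nm_nonneg u
      have hp : 0 < 2 * nm u + 1 := by positivity
      obtain ⟨x', y', h1, h2, h3⟩ := H (ε / (2 * nm u + 1)) (by positivity)
      rw [show u * x - y * u = u * (x - x') - (y - y') * u by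
        rw [mul_sub, sub_mul, h1]; abel]
      have a1 := OA.nm_mul_le (le_refl (nm u)) h2.le
      have a2 := OA.nm_mul_le h3.le (le_refl (nm u))
      have a3 : (2 * nm u + 1) * (ε / (2 * nm u + 1)) = ε := mul_div_cancel₀ _ hp.ne'
      have a4 : 0 < ε / (2 * nm u + 1) := by positivity
      nlinarith [nm_sub_le (u * (x - x')) ((y - y') * u)]) hk hl h hf uf

end Vale.Agent.P070Z
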