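import Vale.Agent.P129BZ.Scal
import Vale.Agent.P129B.Real

/-!
# Functions that are uniformly continuous on bounded sets
-/

set_option linter.unusedSectionVars false

namespace Vale.Agent.P070Z

open Vale.Agent.P129B

universe v

variable {R : Type*} [Field R] [LinearOrder R] [IsStrictOrderedRing R]

/-- uniformly continuous and bounded on bounded sets, in quadratic form -/
def UC (f : R → R) : Prop := ∀ M ε : R, 0 < ε → ∃ C, 0 ≤ C ∧
  ∀ s t, |s| ≤ M → |t| ≤ M → |f s - f t| ≤ ε + C * (s - t) ^ 2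

theorem abs_le_add_sq {ε : R} (hε : 0 < ε) (x : R) : |x| ≤ ε + ε⁻¹ * x ^ 2 := by
  have h : ε * ε⁻¹ = 1 := mul_inv_cancel₀ hε.ne'
  have h2 : 0 < ε⁻¹ := inv_pos.2 hε
  rw [← sq_abs]
  have h3 := abs_nonneg x
  rcases le_total |x| ε with h1 | h1
  · have : 0 ≤ ε⁻¹ * |x| ^ 2 := by positivity
    linarith
  · have : ε * ε⁻¹ * |x| ≤ |x| * ε⁻¹ * |x| := by gcongr
    rw [h] at this
    nlinarith

namespace UC

variable {f g : R → R}

theorem bdd (hf : UC f) (M : R) : ∃ B, 0 ≤ B ∧ ∀ s, |s| ≤ M → |f s| ≤ B := by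
  obtain ⟨C, hC, h⟩ := hf M 1 one_pos
  refine ⟨|f 0| + (1 + C * M ^ 2), by positivity, fun s hs => ?_⟩
  have h1 := h s 0 hs (by rw [abs_zero]; exact (abs_nonneg s).trans hs)
  have h2 : (s - 0) ^ 2 ≤ M ^ 2 := by
    rw [sub_zero, ← sq_abs]; exact pow_le_pow_left₀ (abs_nonneg s) hs 2
  have h3 := mul_le_mul_of_nonneg_left h2 hC
  have h4 := abs_sub_abs_le_abs_sub (f s) (f 0)
  linarith

theorem of_lip (h : ∀ M, ∃ L, 0 ≤ L ∧ ∀ s t, |s| ≤ M → |t| ≤ M → |f s - f t| ≤ L * |s - t|) :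
    UC f := fun M ε hε => by
  obtain ⟨L, hL, h⟩ := h M
  refine ⟨ε⁻¹ * L ^ 2, by positivity, fun s t hs ht => (h s t hs ht).trans ?_⟩
  have := abs_le_add_sq hε (L * (s - t))
  rwa [abs_mul, abs_of_nonneg hL, mul_pow, ← mul_assoc] at this

theorem const (c : R) : UC (fun _ => c) :=
  of_lip fun _ => ⟨0, le_rfl, fun _ _ _ _ => by simp⟩

theorem id : UC (fun t : R => t) := of_lip fun _ => ⟨1, zero_le_one, fun _ _ _ _ => by simp⟩

theorem add (hf : UC f) (hg : UC g) : UC (fun t => f t + g t) := fun M ε hε => by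
  obtain ⟨C, hC, h1⟩ := hf M (ε / 2) (half_pos hε)
  obtain ⟨D, hD, h2⟩ := hg M (ε / 2) (half_pos hε)
  refine ⟨C + D, by positivity, fun s t hs ht => ?_⟩
  have := abs_add_le (f s - f t) (g s - g t)
  rw [show f s + g s - (f t + g t) = f s - f t + (g s - g t) by ring]
  linarith [h1 s t hs ht, h2 s t hs ht]

theorem mul (hf : UC f) (hg : UC g) : UC (fun t => f t * g t) := fun M ε hε => by
  obtain ⟨B, hB, hb⟩ := hf.bdd M
  obtain ⟨E, hE, he⟩ := hg.bdd M
  have hp : 0 < B + E + 1 := by positivity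
  obtain ⟨C, hC, h1⟩ := hf M (ε / (B + E + 1)) (by positivity)
  obtain ⟨D, hD, h2⟩ := hg M (ε / (B + E + 1)) (by positivity)
  refine ⟨B * D + E * C, by positivity, fun s t hs ht => ?_⟩
  rw [show f s * g s - f t * g t = f s * (g s - g t) + g t * (f s - f t) by ring]
  refine (abs_add_le _ _).trans ?_
  rw [abs_mul, abs_mul]
  have a1 := mul_le_mul (hb s hs) (h2 s t hs ht) (abs_nonneg _) hB
  have a2 := mul_le_mul (he t ht) (h1 s t hs ht) (abs_nonneg _) hE
  have a3 : (B + E + 1) * (ε / (B + E + 1)) = ε := mul_div_cancel₀ _ hp.ne'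
  have a4 : 0 < ε / (B + E + 1) := by positivity
  nlinarith

theorem neg (hf : UC f) : UC (fun t => -f t) := by
  simpa only [neg_one_mul] using (const (-1)).mul hf

theorem sub (hf : UC f) (hg : UC g) : UC (fun t => f t - g t) := by
  simpa only [sub_eq_add_neg] using hf.add hg.neg

theorem comp (hf : UC f) (hg : UC g) : UC (fun t => f (g t)) := fun M ε hε => by
  obtain ⟨B, hB, hb⟩ := hg.bdd M
  obtain ⟨C, hC, h1⟩ := hf B (ε / 2) (half_pos hε)
  have hp : 0 < C * (2 * B) + 1 := by positivity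
  obtain ⟨D, hD, h2⟩ := hg M (ε / 2 / (C * (2 * B) + 1)) (by positivity)
  refine ⟨C * (2 * B) * D, by positivity, fun s t hs ht => (h1 _ _ (hb s hs) (hb t ht)).trans ?_⟩
  have a1 : |g s - g t| ≤ 2 * B := by linarith [abs_sub (g s) (g t), hb s hs, hb t ht]
  have a2 : (g s - g t) ^ 2 ≤ 2 * B * (ε / 2 / (C * (2 * B) + 1) + D * (s - t) ^ 2) := by
    rw [← sq_abs, sq]; exact mul_le_mul a1 (h2 s t hs ht) (abs_nonneg _) (by positivity)
  have a3 : (C * (2 * B) + 1) * (ε / 2 / (C * (2 * B) + 1)) = ε / 2 := mul_div_cancel₀ _ hp.ne'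
  have a4 : 0 < ε / 2 / (C * (2 * B) + 1) := by positivity
  have a5 := mul_le_mul_of_nonneg_left a2 hC
  nlinarith

theorem abs (hf : UC f) : UC (fun t => |f t|) :=
  (of_lip (f := fun t => |t|) fun _ => ⟨1, zero_le_one, fun s t _ _ => by
    rw [one_mul]; exact abs_abs_sub_abs_le s t⟩).comp hf

theorem max (hf : UC f) (hg : UC g) : UC (fun t => max (f t) (g t)) := by
  have := (const (1 / 2)).mul ((hf.add hg).add (hf.sub hg).abs)
  refine (funext fun t => ?_ : _ = fun t => Max.max (f t) (g t)) ▸ this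
  rcases le_total (f t) (g t) with h | h
  · rw [max_eq_right h, abs_of_nonpos (sub_nonpos.2 h)]; ring
  · rw [max_eq_left h, abs_of_nonneg (sub_nonneg.2 h)]; ring

theorem min (hf : UC f) (hg : UC g) : UC (fun t => min (f t) (g t)) := by
  have := (hf.neg.max hg.neg).neg
  refine (funext fun t => ?_ : _ = fun t => Min.min (f t) (g t)) ▸ this
  rw [max_neg_neg, neg_neg]

theorem inv (hf : UC f) {c : R} (hc : 0 < c) (h : ∀ t, c ≤ f t) : UC (fun t => (f t)⁻¹) := by
  have h1 : UC (fun t : R => (Max.max t c)⁻¹) := of_lip fun _ =>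
    ⟨c⁻¹ * c⁻¹, by positivity, fun s t _ _ => by
      have a1 : c ≤ Max.max s c := le_max_right _ _
      have a2 : c ≤ Max.max t c := le_max_right _ _
      have a3 := hc.trans_le a1
      have a4 := hc.trans_le a2
      rw [inv_sub_inv a3.ne' a4.ne', div_eq_mul_inv, abs_mul, mul_comm, mul_inv,
        abs_of_pos (by positivity : 0 < (Max.max s c)⁻¹ * (Max.max t c)⁻¹), abs_sub_comm]
      exact mul_le_mul (mul_le_mul (inv_anti₀ hc a1) (inv_anti₀ hc a2) (by positivity)
        (by positivity)) (abs_max_sub_max_le_abs s t c) (abs_nonneg _) (by positivity)⟩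
  refine (funext fun t => ?_ : _ = fun t => (f t)⁻¹) ▸ h1.comp hf
  rw [max_eq_left (h t)]

variable (N : Type v) [ZM N] [Coded N R] [RF N R]

include N in
theorem rsqrt (hf : UC f) (h : ∀ t, 0 ≤ f t) : UC (fun t => rsqrt (f t)) := by
  have h1 : UC (fun t : R => P129B.rsqrt |t|) := fun M ε hε => by
    have hp : 0 < ε / 2 := half_pos hε
    refine ⟨(ε / 2)⁻¹ * (ε / 2 * (ε / 2))⁻¹, by positivity, fun s t _ _ => ?_⟩
    have a1 := rsqrt_sq N (abs_nonneg s)
    have a2 := rsqrt_sq N (abs_nonneg t)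
    have a3 := rsqrt_nonneg |s|
    have a4 := rsqrt_nonneg |t|
    have a5 : (P129B.rsqrt |s| - P129B.rsqrt |t|) ^ 2 ≤ |s - t| := by
      refine le_trans ?_ (abs_abs_sub_abs_le s t)
      rcases le_total (P129B.rsqrt |s|) (P129B.rsqrt |t|) with h | h
      · refine le_trans ?_ (neg_le_abs _); nlinarith
      · refine le_trans ?_ (le_abs_self _); nlinarith
    have a6 := abs_le_add_sq hp (P129B.rsqrt |s| - P129B.rsqrt |t|)
    have a7 := a5.trans (abs_le_add_sq (mul_pos hp hp) (s - t))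
    have a8 := mul_le_mul_of_nonneg_left a7 (inv_pos.2 hp).le
    rw [mul_add, ← mul_assoc, inv_mul_cancel₀ hp.ne', one_mul, ← mul_assoc] at a8
    linarith
  refine (funext fun t => ?_ : _ = fun t => P129B.rsqrt (f t)) ▸ h1.comp hf
  rw [abs_of_nonneg (h t)]

end UC

end Vale.Agent.P070Z
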