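import Vale.Agent.P070ZF.Res
import Vale.Agent.P070ZF.UC
import Vale.Agent.P070ZA.Hs

/-!
# The continuous functional calculus by Bernstein operators
-/

set_option linter.unusedSectionVars false

namespace Vale.Agent.P070Z

open Vale.Agent.P129B

universe v

variable {N : Type v} [ZM N] {R : Type*} [Field R] [LinearOrder R] [IsStrictOrderedRing R]
  [Coded N R] [RF N R]
  {A : Type*} [Ring A] [Algebra R A] [PartialOrder A] [Nm A R] [OA R A] [Coded N A] [OAN N R A]

namespace OA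

theorem tt_add {u w : NN N → A} {x y : A} (hu : Tt u x) (hw : Tt w y) :
    Tt (fun n => u n + w n) (x + y) := fun ε hε => by
  obtain ⟨n, hn⟩ := hu (ε / 2) (half_pos hε)
  obtain ⟨m, hm⟩ := hw (ε / 2) (half_pos hε)
  refine ⟨max n m, fun j hj => ?_⟩
  rw [add_sub_add_comm]
  linarith [nm_add_le (u j - x) (w j - y), hn j ((le_max_left _ _).trans hj),
    hm j ((le_max_right _ _).trans hj)]

theorem tt_const (x : A) : Tt (fun _ : NN N => x) x := fun ε hε => ⟨0, fun _ _ => by simpa⟩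

theorem tt_mul {u w : NN N → A} {x y : A} (hu : Tt u x) (hw : Tt w y) :
    Tt (fun n => u n * w n) (x * y) := fun ε hε => by
  have hx := nm_nonneg x
  have hy := nm_nonneg y
  have hp : 0 < nm x + nm y + 1 + ε := by positivity
  have hq : 0 < ε / (nm x + nm y + 1 + ε) := by positivity
  have h1 : (nm x + nm y + 1 + ε) * (ε / (nm x + nm y + 1 + ε)) = ε := mul_div_cancel₀ _ hp.ne'
  have h2 : ε / (nm x + nm y + 1 + ε) ≤ 1 := by rw [div_le_one hp]; linarith
  obtain ⟨n, hn⟩ := hu _ hq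
  obtain ⟨m, hm⟩ := hw _ hq
  refine ⟨max n m, fun j hj => ?_⟩
  have a1 := (hn j ((le_max_left _ _).trans hj)).le
  have a2 := (hm j ((le_max_right _ _).trans hj)).le
  rw [show u j * w j - x * y = (u j - x) * (w j - y) + (x * (w j - y) + (u j - x) * y) by
    noncomm_ring]
  have a3 := nm_mul_le a1 (a2.trans h2)
  have a4 := nm_mul_le (le_refl (nm x)) a2
  have a5 := nm_mul_le a1 (le_refl (nm y))
  have a6 := nm_add_le ((u j - x) * (w j - y)) (x * (w j - y) + (u j - x) * y)
  have a7 := nm_add_le (x * (w j - y)) ((u j - x) * y)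
  nlinarith

theorem tt_smul (c : R) {u : NN N → A} {x : A} (hu : Tt u x) : Tt (fun n => c • u n) (c • x) :=
  hu.map (f := fun x => c • x) (C := |c|) fun a b => by rw [← smul_sub, OA.nm_smul]

theorem tt_close {u w : NN N → A} {x : A} (hu : Tt u x)
    (h : ∀ ε : R, 0 < ε → ∃ n, ∀ j, n ≤ j → nm (w j - u j) < ε) : Tt w x := by
  have := tt_add (x := 0) (u := fun j => w j - u j) (fun ε hε => by simpa using h ε hε) hu
  simpa using this

theorem tt_le {u w : NN N → A} {x y : A} (hu : Tt u x) (hw : Tt w y) (h : ∀ n, u n ≤ w n) :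
    x ≤ y := le_of_approx fun ε hε => by
  obtain ⟨n, hn⟩ := hu ε hε
  obtain ⟨m, hm⟩ := hw ε hε
  refine ⟨_, _, h (max n m), ?_, ?_⟩
  · rw [nm_sub_rev]; exact (hn _ (le_max_left _ _)).le
  · rw [nm_sub_rev]; exact (hm _ (le_max_right _ _)).le

end OA

/-- `a ≤ k ≤ b` with `a < b` -/
structure Bd (k : A) (a b : R) : Prop where
  lt : a < b
  lo : a • (1 : A) ≤ k
  hi : k ≤ b • (1 : A)

/-- the spectrum of `k` lies in an interval on which `P` holds -/
def Sp (k : A) (P : R → Prop) : Prop := ∃ a b, Bd k a b ∧ ∀ t, a ≤ t → t ≤ b → P t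

/-- the Bernstein nodes -/
noncomputable def bpt (a b : R) (n i : NN N) : R := a + (b - a) * (rc R n + 1)⁻¹ * rc R i

/-- the Bernstein operators -/
noncomputable def bop (a b : R) (f : R → R) (k : A) (n : NN N) : A :=
  wsum (fun i => f (bpt a b n i)) (bern N ((b - a)⁻¹ • (k - a • (1 : A))) (n + 1)) (n + 1 + 1)

variable (N) in
/-- `y` is the limit of all Bernstein sequences -/
def IsFc (f : R → R) (k y : A) : Prop := ∀ a b, Bd k a b → Tt (bop (N := N) a b f k) y

variable (N) in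
open Classical in
/-- the functional calculus -/
noncomputable def fc (f : R → R) (k : A) : A :=
  if h : ∃ y, IsFc N f k y ∧ ∀ z, IsFc N f k z → z = y then h.choose else 0

section Def

variable {α : Type*} [Coded N α]

@[fun_prop] theorem defF_bpt {a b : α → R} {n i : α → NN N} (ha : DefF N a) (hb : DefF N b)
    (hn : DefF N n) (hi : DefF N i) : DefF N (fun x => bpt (a x) (b x) (n x) (i x)) := by
  unfold bpt; fun_prop

@[fun_prop] theorem defF_bop {a b : α → R} {f : α → R → R} {k : α → A} {n : α → NN N}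
    (ha : DefF N a) (hb : DefF N b) (hf : DefF N (fun p : α × R => f p.1 p.2)) (hk : DefF N k)
    (hn : DefF N n) : DefF N (fun x => bop (a x) (b x) (f x) (k x) (n x)) := by
  unfold bop
  refine defF_wsum ?_ (by fun_prop) (by fun_prop)
  exact hf.comp2 DefF.id.fst (by fun_prop)

@[fun_prop] theorem defF_bd {a b : α → R} {k : α → A} (hk : DefF N k) (ha : DefF N a)
    (hb : DefF N b) : DefF N (fun x => Bd (k x) (a x) (b x)) := by
  have : DefF N (fun x => a x < b x ∧ a x • (1 : A) ≤ k x ∧ k x ≤ b x • (1 : A)) := by fun_prop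
  exact this.congr fun x _ => propext ⟨fun h => ⟨h.1, h.2.1, h.2.2⟩, fun h => ⟨h.1, h.2, h.3⟩⟩

@[fun_prop] theorem defF_isFc {f : α → R → R} {k y : α → A}
    (hf : DefF N (fun p : α × R => f p.1 p.2)) (hk : DefF N k) (hy : DefF N y) :
    DefF N (fun x => IsFc N (f x) (k x) (y x)) := by
  unfold IsFc
  refine DefF.allT (DefF.allT (DefF.imp (by fun_prop) (DefF.tt (defF_bop (by fun_prop)
    (by fun_prop) ?_ (by fun_prop) (by fun_prop)) (by fun_prop))))
  exact hf.comp2 (by fun_prop) (by fun_prop)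

@[fun_prop] theorem defF_fc {f : α → R → R} {k : α → A}
    (hf : DefF N (fun p : α × R => f p.1 p.2)) (hk : DefF N k) :
    DefF N (fun x => fc N (f x) (k x)) := by
  have h1 : DefF N (fun p : α × A => IsFc N (f p.1) (k p.1) p.2) :=
    defF_isFc (hf.comp2 (by fun_prop) (by fun_prop)) (by fun_prop) (by fun_prop)
  have h2 : DefF N (fun p : α × A => IsFc N (f p.1) (k p.1) p.2 ∧
      ∀ z, IsFc N (f p.1) (k p.1) z → z = p.2) :=
    h1.and (DefF.allT (DefF.imp (h1.comp2 (F := fun x z => IsFc N (f x) (k x) z)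
      (by fun_prop) (by fun_prop)) (by fun_prop)))
  have h3 : DefF N (fun x => ¬ ∃ y, IsFc N (f x) (k x) y ∧ ∀ z, IsFc N (f x) (k x) z → z = y) :=
    (DefF.exT (P := fun x y => IsFc N (f x) (k x) y ∧ ∀ z, IsFc N (f x) (k x) z → z = y) h2).not
  refine defF_of_rel (R := fun x y => (IsFc N (f x) (k x) y ∧ ∀ z, IsFc N (f x) (k x) z → z = y) ∨
    ((¬ ∃ y, IsFc N (f x) (k x) y ∧ ∀ z, IsFc N (f x) (k x) z → z = y) ∧ y = 0))
    (fun _ _ => Tot.intl _) (h2.or (DefF.and (h3.comp DefF.id.fst) (by fun_prop)))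
    fun x y _ _ => ?_
  unfold fc
  split_ifs with h
  · exact ⟨fun H => (H.resolve_right fun e => e.1 h).2 _ h.choose_spec.1,
      fun H => Or.inl (H ▸ h.choose_spec)⟩
  · exact ⟨fun H => (H.resolve_left fun e => h ⟨y, e⟩).2.symm, fun H => Or.inr ⟨h, H.symm⟩⟩

end Def

variable {k : A} {a b : R} {f g : R → R}

theorem bpt_mem (hab : a < b) {n i : NN N} (hi : i < n + 1 + 1) :
    a ≤ bpt a b n i ∧ bpt a b n i ≤ b := by
  have h0 : (0 : R) ≤ rc R i := rc_nonneg i
  have h1 : rc R i ≤ rc R n + 1 := by rw [← rc_succ]; exact rc_le.2 (NN.lt_add_one_iff.1 hi)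
  have h2 := rc_succ_pos (R := R) n
  have h3 := sub_pos.2 hab
  have h4 : (rc R n + 1)⁻¹ * rc R i ≤ 1 := by rw [inv_mul_le_iff₀ h2]; linarith
  unfold bpt
  rw [mul_assoc]
  exact ⟨le_add_of_nonneg_right (by positivity), by nlinarith⟩

theorem Bd.res (h : Bd k a b) (n : NN N) : Res k ((b - a) ^ 2 * (rc R n + 1)⁻¹) (n + 1 + 1)
    (bpt a b n) (bern N ((b - a)⁻¹ • (k - a • (1 : A))) (n + 1)) := by
  have hd := sub_pos.2 h.lt
  have hn := rc_succ_pos (R := R) n
  obtain ⟨x, hx⟩ : ∃ x, x = (b - a)⁻¹ • (k - a • (1 : A)) := ⟨_, rfl⟩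
  have hk : k = a • (1 : A) + (b - a) • x := by
    rw [hx, smul_smul, mul_inv_cancel₀ hd.ne', one_smul, add_sub_cancel]
  have h0 : 0 ≤ x := hx ▸ OA.smul_nonneg _ _ (inv_pos.2 hd).le (sub_nonneg.2 h.lo)
  have h1 : x ≤ 1 := by
    have := OA.smul_mono (inv_pos.2 hd).le (sub_le_sub_right h.hi (a • (1 : A)))
    rwa [← sub_smul, smul_smul, inv_mul_cancel₀ hd.ne', one_smul, ← hx] at this
  have hc : ∀ y, Commute k y → Commute x y := fun y hy =>
    hx ▸ (hy.sub_left ((Commute.one_left y).smul_left a)).smul_left _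
  rw [← hx]
  have hb : DefF N (bern N x (n + 1)) := by fun_prop
  obtain ⟨m0, m1, m2⟩ := bern_moments (N := N) (R := R) x (n + 1)
  have c0 : ∀ c : R, wsum (fun _ => c) (bern N x (n + 1)) (n + 1 + 1) = c • (1 : A) := fun c => by
    have := wsum_mul (n := n + 1 + 1) c (g := fun _ => (1 : R)) (by fun_prop) hb
    rw [m0] at this
    simpa only [mul_one] using this
  have cm : ∀ y, Commute x y → ∀ i, Commute (bern N x (n + 1) i) y := fun y hy i =>
    bern_ind (P := fun e => Commute e y) (by fun_prop) (Commute.zero_left y) (Commute.one_left y)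
      (fun _ _ h1 h2 => (((Commute.one_left y).sub_left hy).mul_left h1).add_left
        (hy.mul_left h2)) _ i
  refine ⟨by fun_prop, hb, fun i => ?_, fun i y hy => cm y (hc y hy) i, m0, ?_, ?_⟩
  · refine (bern_ind (P := fun e => 0 ≤ e ∧ Commute x e) (by fun_prop)
      ⟨le_rfl, Commute.zero_right x⟩ ⟨OA.one_nonneg, Commute.one_right x⟩
      (fun u w h2 h3 => ⟨add_nonneg (OA.mul_nonneg N (sub_nonneg.2 h1) h2.1
        ((Commute.one_left u).sub_left h2.2)) (OA.mul_nonneg N h0 h3.1 h3.2),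
        (((Commute.one_right x).sub_right (Commute.refl x)).mul_right h2.2).add_right
          ((Commute.refl x).mul_right h3.2)⟩) _ i).1
  · unfold bpt
    rw [wsum_add (by fun_prop) (by fun_prop) hb, c0, wsum_mul _ (by fun_prop) hb, m1, rc_succ,
      smul_smul, mul_assoc, inv_mul_cancel₀ hn.ne', mul_one, ← hk]
  · have e : (fun i => bpt a b n i * bpt a b n i) = fun i => a * a +
        2 * a * ((b - a) * (rc R n + 1)⁻¹) * rc R i +
          ((b - a) * (rc R n + 1)⁻¹) ^ 2 * (rc R i * rc R i) := by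
      funext i; unfold bpt; ring
    rw [e, wsum_add (by fun_prop) (by fun_prop) hb, wsum_add (by fun_prop) (by fun_prop) hb, c0,
      wsum_mul _ (by fun_prop) hb, wsum_mul _ (by fun_prop) hb, m1, m2, rc_succ, ← sub_nonneg]
    have a1 : 0 ≤ ((b - a) ^ 2 * (rc R n + 1)⁻¹) • ((1 - x) + x * x) :=
      OA.smul_nonneg _ _ (by positivity)
        (add_nonneg (sub_nonneg.2 h1) (OA.sq_nonneg_of_nonneg h0))
    refine a1.trans_eq ?_
    rw [hk]
    simp only [mul_add, add_mul, smul_mul_assoc, mul_smul_comm, one_mul, mul_one]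
    match_scalars <;> field_simp <;> ring

theorem abs_bpt_le (hab : a < b) {M : R} (ha : |a| ≤ M) (hb : |b| ≤ M) {n i : NN N}
    (hi : i < n + 1 + 1) : |bpt a b n i| ≤ M := by
  obtain ⟨h1, h2⟩ := bpt_mem hab hi
  exact abs_le.2 ⟨(abs_le.1 ha).1.trans h1, h2.trans (abs_le.1 hb).2⟩

variable (N) in
theorem exists_var_lt (C D : R) (hC : 0 ≤ C) (hD : 0 ≤ D) {ε : R} (hε : 0 < ε) :
    ∃ n0 : NN N, ∀ n m, n0 ≤ n → n0 ≤ m →
      C * (rc R n + 1)⁻¹ + D * (rc R m + 1)⁻¹ < ε := by
  have hp : 0 < C + D + 1 := by positivity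
  obtain ⟨n0, h⟩ := exists_inv_rc_lt N (show 0 < ε / (C + D + 1) by positivity)
  refine ⟨n0, fun n m hn hm => ?_⟩
  have a1 := mul_le_mul_of_nonneg_left (h n hn).le hC
  have a2 := mul_le_mul_of_nonneg_left (h m hm).le hD
  have a3 : (C + D + 1) * (ε / (C + D + 1)) = ε := mul_div_cancel₀ _ hp.ne'
  have a4 : 0 < ε / (C + D + 1) := by positivity
  nlinarith

theorem bop_close (hf : DefF N f) (uf : UC f) (h : Bd k a b) {c d : R} (h' : Bd k c d) {ε : R}
    (hε : 0 < ε) : ∃ n0 : NN N, ∀ n m, n0 ≤ n → n0 ≤ m →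
      nm (bop a b f k n - bop c d f k m) < ε := by
  obtain ⟨C, hC, H⟩ := uf (|a| + |b| + |c| + |d|) (ε / 2) (half_pos hε)
  obtain ⟨n0, h0⟩ := exists_var_lt N (C * (b - a) ^ 2) (C * (d - c) ^ 2) (by positivity)
    (by positivity) (half_pos hε)
  refine ⟨n0, fun n m hn hm => ?_⟩
  have h1 := rc_succ_pos (R := R) n
  have h2 := rc_succ_pos (R := R) m
  have ha := abs_nonneg a; have hb := abs_nonneg b; have hc := abs_nonneg c
  have hd := abs_nonneg d
  refine ((h.res n).nm_sub_le (h'.res m) (half_pos hε).le hC (by positivity) (by fun_prop)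
    (by fun_prop) fun i j hi hj => H _ _ (abs_bpt_le h.lt (by linarith) (by linarith) hi)
      (abs_bpt_le h'.lt (by linarith) (by linarith) hj)).trans_lt ?_
  have := h0 n m hn hm
  rw [mul_assoc, mul_assoc, ← mul_add] at this
  linarith

theorem tt_fc (hf : DefF N f) (uf : UC f) (h : Bd k a b) :
    Tt (bop (N := N) a b f k) (fc N f k) := by
  obtain ⟨y, hy⟩ := exists_tt (s := bop (N := N) a b f k) (by fun_prop)
    fun ε hε => bop_close hf uf h h hε
  have h1 : IsFc N f k y := fun c d h' => OA.tt_close hy fun ε hε => by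
    obtain ⟨n, hn⟩ := bop_close hf uf h' h hε
    exact ⟨n, fun j hj => hn j j hj hj⟩
  have h2 : ∃ y, IsFc N f k y ∧ ∀ z, IsFc N f k z → z = y :=
    ⟨y, h1, fun z hz => (hz a b h).uniq hy⟩
  unfold fc
  rw [dif_pos h2]
  exact h2.choose_spec.1 a b h

theorem bop_mul_close (hf : DefF N f) (uf : UC f) (hg : DefF N g) (ug : UC g) (h : Bd k a b)
    {ε : R} (hε : 0 < ε) : ∃ n0 : NN N, ∀ n, n0 ≤ n →
      nm (bop a b f k n * bop a b g k n - bop a b (fun t => f t * g t) k n) < ε := by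
  obtain ⟨B, hB, HB⟩ := uf.bdd (|a| + |b|)
  have hp : 0 < B + 1 := by positivity
  obtain ⟨C, hC, H⟩ := ug (|a| + |b|) (ε / 2 / (B + 1)) (by positivity)
  obtain ⟨n0, h0⟩ := exists_var_lt N (B * C * (b - a) ^ 2) (B * C * (b - a) ^ 2) (by positivity)
    (by positivity) (half_pos hε)
  refine ⟨n0, fun n hn => ?_⟩
  have h1 := rc_succ_pos (R := R) n
  have ha := abs_nonneg a; have hb := abs_nonneg b
  refine ((h.res n).nm_mul_sub_le (ε := B * (ε / 2 / (B + 1))) (C := B * C) (by positivity)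
    (by positivity) (by positivity) (by fun_prop) (by fun_prop) fun i j hi hj => ?_).trans_lt ?_
  · have a1 := abs_bpt_le h.lt (M := |a| + |b|) (by linarith) (by linarith) hi
    have a2 := abs_bpt_le h.lt (M := |a| + |b|) (by linarith) (by linarith) hj
    rw [abs_mul, abs_sub_comm, mul_assoc, ← mul_add]
    exact mul_le_mul (HB _ a1) (H _ _ a1 a2) (abs_nonneg _) hB
  · have := h0 n n hn hn
    have a3 : (B + 1) * (ε / 2 / (B + 1)) = ε / 2 := mul_div_cancel₀ _ hp.ne'
    have a4 : 0 < ε / 2 / (B + 1) := by positivity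
    nlinarith

end Vale.Agent.P070Z
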