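import Vale.Agent.P129BZ.Scal
import Vale.Agent.P129B.Real
import Vale.Agent.P129BI.FP

/-!
# Ordered normed algebras of a model
-/

namespace Vale.Agent.P070Z

open Vale.Agent.P129B

universe v

/-- Ordered normed algebras over the ordered field `R` (algebra only). -/
class OA (R : outParam Type*) (A : Type*) [Field R] [LinearOrder R] [IsStrictOrderedRing R]
    [Ring A] [Algebra R A] [PartialOrder A] [Nm A R] : Prop where
  ng : NG R A
  ord : IsOrderedAddMonoid A
  nm_smul : ∀ (r : R) (a : A), nm (r • a) = |r| * nm a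
  nm_mul : ∀ a b : A, nm (a * b) ≤ nm a * nm b
  one_nonneg : (0 : A) ≤ 1
  smul_nonneg : ∀ (r : R) (a : A), 0 ≤ r → 0 ≤ a → 0 ≤ r • a
  conj : ∀ a x : A, 0 ≤ a → 0 ≤ x → 0 ≤ x * a * x
  nm_le : ∀ (c : R) (a : A), 0 ≤ c → -(c • (1 : A)) ≤ a → a ≤ c • (1 : A) → nm a ≤ c
  le_nm : ∀ a : A, 0 ≤ a → a ≤ nm a • (1 : A)
  closed : ∀ a : A, (∀ ε : R, 0 < ε → ∃ b : A, 0 ≤ b ∧ nm (a - b) ≤ ε) → 0 ≤ a

/-- The complete ordered normed algebras of the model. -/
class OAN (N : Type v) [ZM N] (R : outParam Type*) (A : Type*) [Field R] [LinearOrder R]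
    [Ring A] [Algebra R A] [PartialOrder A] [Nm A R] [Coded N R] [Coded N A] : Prop where
  tot : Tot N A
  defAdd : DefAdd N A
  defMul : DefMul N A
  defSMul : DefSMul N R A
  defLE : DefLE N A
  defNm : DefNm N R A
  cpl : Cpl N R A

attribute [instance 90] OA.ng OA.ord OAN.tot OAN.defAdd OAN.defMul OAN.defSMul OAN.defLE
  OAN.defNm OAN.cpl

variable {R : Type*} [Field R] [LinearOrder R] [IsStrictOrderedRing R]
  {A : Type*} [Ring A] [Algebra R A] [PartialOrder A] [Nm A R] [OA R A]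

include R

namespace OA

theorem smul_le_smul {r s : R} {a : A} (h : r ≤ s) (ha : 0 ≤ a) : r • a ≤ s • a := by
  rw [← sub_nonneg, ← sub_smul]; exact OA.smul_nonneg _ _ (sub_nonneg.2 h) ha

theorem smul_mono {r : R} {a b : A} (hr : 0 ≤ r) (h : a ≤ b) : r • a ≤ r • b := by
  rw [← sub_nonneg, ← smul_sub]; exact OA.smul_nonneg _ _ hr (sub_nonneg.2 h)

theorem sc_mono {r s : R} (h : r ≤ s) : r • (1 : A) ≤ s • (1 : A) := smul_le_smul h OA.one_nonneg

theorem sc_nonneg {r : R} (h : 0 ≤ r) : (0 : A) ≤ r • (1 : A) :=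
  OA.smul_nonneg _ _ h OA.one_nonneg

theorem sq_nonneg_of_nonneg {a : A} (h : 0 ≤ a) : 0 ≤ a * a := by
  have := OA.conj 1 a OA.one_nonneg h
  rwa [mul_one] at this

theorem nm_one_le : nm (1 : A) ≤ 1 :=
  OA.nm_le 1 1 zero_le_one
    (by rw [one_smul]; exact (neg_nonpos.2 OA.one_nonneg).trans OA.one_nonneg) (by rw [one_smul])

theorem nm_sc_le (r : R) : nm (r • (1 : A)) ≤ |r| := by
  rw [OA.nm_smul]; exact mul_le_of_le_one_right (abs_nonneg r) nm_one_le

theorem nm_le_of_nonneg {a : A} {c : R} (hc : 0 ≤ c) (h0 : 0 ≤ a) (h : a ≤ c • (1 : A)) :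
    nm a ≤ c := OA.nm_le c a hc ((neg_nonpos.2 (sc_nonneg hc)).trans h0) h

theorem nm_mul_le {a b : A} {r s : R} (ha : nm a ≤ r) (hb : nm b ≤ s) : nm (a * b) ≤ r * s :=
  (OA.nm_mul a b).trans (mul_le_mul ha hb (nm_nonneg b) ((nm_nonneg a).trans ha))

theorem sub_sq_nonneg {a : A} (h0 : 0 ≤ a) (h1 : a ≤ 1) : 0 ≤ a - a * a := by
  have h2 := sub_nonneg.2 h1
  have : a - a * a = a * (1 - a) * a + (1 - a) * a * (1 - a) := by noncomm_ring
  rw [this]
  exact add_nonneg (OA.conj _ _ h2 h0) (OA.conj _ _ h0 h2)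

theorem sub_sq_le {a : A} {c : R} (hc : 2 * c ≤ 1) (h : a ≤ c • (1 : A)) :
    a - a * a ≤ (c - c * c) • (1 : A) := by
  have h2 := sub_nonneg.2 h
  have : (c - c * c) • (1 : A) - (a - a * a) =
      (1 - 2 * c) • (c • (1 : A) - a) + (c • (1 : A) - a) * (c • (1 : A) - a) := by
    simp only [mul_sub, sub_mul, smul_mul_assoc, mul_smul_comm, one_mul, mul_one]
    module
  rw [← sub_nonneg, this]
  exact add_nonneg (OA.smul_nonneg _ _ (by linarith) h2) (sq_nonneg_of_nonneg h2)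

/-- closedness of the order -/
theorem le_of_approx {a b : A} (h : ∀ ε : R, 0 < ε → ∃ x y : A, x ≤ y ∧ nm (a - x) ≤ ε ∧
    nm (b - y) ≤ ε) : a ≤ b := by
  rw [← sub_nonneg]
  refine OA.closed _ fun ε hε => ?_
  obtain ⟨x, y, h1, h2, h3⟩ := h (ε / 2) (by positivity)
  refine ⟨y - x, sub_nonneg.2 h1, ?_⟩
  have : b - a - (y - x) = (b - y) - (a - x) := by abel
  rw [this]
  exact (nm_sub_le _ _).trans (by linarith)

end OA

variable {N : Type v} [ZM N] [Coded N R] [RF N R] [Coded N A] [OAN N R A]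

instance (priority := 90) OAN.defNeg : DefNeg N A := defNeg_of_add
instance (priority := 90) OAN.defSub : DefSub N A := defSub_of_neg

omit [OA R A] [IsStrictOrderedRing R] [RF N R] in
@[fun_prop] theorem defF_commute {α : Type*} [Coded N α] {f g : α → A} (hf : DefF N f)
    (hg : DefF N g) : DefF N (fun a => Commute (f a) (g a)) := by
  have : DefF N (fun a => f a * g a = g a * f a) := by fun_prop
  exact this

namespace OA

variable (N) in
include N in
theorem mul_nonneg_aux {a b : A} (ha : 0 ≤ a) (ha2 : a ≤ (1 / 2 : R) • (1 : A)) (hb : 0 ≤ b)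
    (hab : Commute a b) : 0 ≤ a * b := by
  let u : NN N → A := irec a fun _ x => x - x * x
  have hu : DefF N u := by unfold u; fun_prop
  have hs : ∀ n, u (n + 1) = u n - u n * u n := fun n => irec_succ (by fun_prop) n
  have key : ∀ n, 0 ≤ u n ∧ u n ≤ (rc R n + 2)⁻¹ • (1 : A) ∧ Commute (u n) b ∧
      0 ≤ a * b - u n * b := by
    refine NN.ind (by fun_prop) ?_ ?_
    · have : u 0 = a := irec_zero _ _
      rw [this]
      exact ⟨ha, by simpa using ha2, hab, by simp⟩
    · rintro n ⟨h0, h1, h2, h3⟩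
      have hn : (0 : R) ≤ rc R n := rc_nonneg n
      have hp : (0 : R) < rc R n + 2 := by linarith
      have hc : 2 * (rc R n + 2)⁻¹ ≤ 1 := by
        rw [← div_eq_mul_inv, div_le_one hp]; linarith
      have h4 : u n ≤ 1 := h1.trans (by
        have := sc_mono (A := A) (show (rc R n + 2)⁻¹ ≤ 1 by linarith [inv_pos.2 hp])
        rwa [one_smul] at this)
      rw [hs]
      refine ⟨sub_sq_nonneg h0 h4, (sub_sq_le hc h1).trans (sc_mono ?_),
        h2.sub_left (h2.mul_left h2), ?_⟩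
      · rw [rc_succ]
        have h5 : (0 : R) < rc R n + 1 + 2 := by linarith
        rw [← sub_nonneg]
        have : (rc R n + 1 + 2)⁻¹ - ((rc R n + 2)⁻¹ - (rc R n + 2)⁻¹ * (rc R n + 2)⁻¹) =
            (rc R n + 1 + 2)⁻¹ * (rc R n + 2)⁻¹ * (rc R n + 2)⁻¹ := by
          field_simp; ring
        rw [this]; positivity
      · have : a * b - (u n - u n * u n) * b = (a * b - u n * b) + u n * b * u n := by
          rw [mul_assoc (u n) b, ← h2.eq]; noncomm_ring
        rw [this]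
        exact add_nonneg h3 (OA.conj _ _ hb h0)
  refine OA.closed _ fun ε hε => ?_
  have hb0 := nm_nonneg b
  obtain ⟨n, hn⟩ := exists_inv_rc_lt N (show 0 < ε / (nm b + 1) by positivity)
  obtain ⟨h0, h1, -, h3⟩ := key n
  refine ⟨_, h3, ?_⟩
  rw [sub_sub_cancel]
  have hr : (0 : R) ≤ rc R n := rc_nonneg n
  have h5 : (rc R n + 2)⁻¹ ≤ ε / (nm b + 1) :=
    (inv_anti₀ (by linarith) (by linarith)).trans (hn n le_rfl).le
  refine (nm_mul_le ((nm_le_of_nonneg (by positivity) h0 h1).trans h5) le_rfl).trans ?_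
  rw [div_mul_eq_mul_div, div_le_iff₀ (by positivity)]
  nlinarith

variable (N) in
include N in
/-- The product of two commuting positive elements is positive. -/
theorem mul_nonneg {a b : A} (ha : 0 ≤ a) (hb : 0 ≤ b) (hab : Commute a b) : 0 ≤ a * b := by
  have h0 := nm_nonneg a
  have hp : 0 < 2 * (nm a + 1) := by positivity
  have h1 : (2 * (nm a + 1))⁻¹ • a ≤ (1 / 2 : R) • (1 : A) := by
    refine (smul_mono (inv_pos.2 hp).le (OA.le_nm a ha)).trans ?_
    rw [smul_smul]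
    refine sc_mono ?_
    rw [inv_mul_le_iff₀ hp]; linarith
  have := mul_nonneg_aux N (OA.smul_nonneg _ _ (inv_pos.2 hp).le ha) h1 hb (hab.smul_left _)
  have h2 := OA.smul_nonneg _ _ hp.le this
  rwa [smul_mul_assoc, smul_smul, mul_inv_cancel₀ hp.ne', one_smul] at h2

end OA

end Vale.Agent.P070Z
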