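import Vale.Agent.P070ZF.OA

/-!
# Approximate spectral resolutions and the Bernstein resolution
-/

set_option linter.unusedSectionVars false

namespace Vale.Agent.P070Z

open Vale.Agent.P129B

universe v

variable {N : Type v} [ZM N] {R : Type*} [Field R] [LinearOrder R] [IsStrictOrderedRing R]
  [Coded N R] [RF N R]
  {A : Type*} [Ring A] [Algebra R A] [PartialOrder A] [Nm A R] [OA R A] [Coded N A] [OAN N R A]

/-- weighted sum of a family -/
noncomputable def wsum (g : NN N → R) (E : NN N → A) (n : NN N) : A := isum (fun i => g i • E i) n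

omit [IsStrictOrderedRing R] [RF N R] [OA R A] in
@[fun_prop] theorem defF_wsum {α : Type*} [Coded N α] {g : α → NN N → R} {E : α → NN N → A}
    {n : α → NN N} (hg : DefF N (fun p : α × NN N => g p.1 p.2))
    (hE : DefF N (fun p : α × NN N => E p.1 p.2)) (hn : DefF N n) :
    DefF N (fun a => wsum (g a) (E a) (n a)) := by
  unfold wsum; fun_prop

section

variable {g h : NN N → R} {E : NN N → A} {n : NN N}

omit [OA R A] in
theorem wsum_add (hg : DefF N g) (hh : DefF N h) (hE : DefF N E) :
    wsum (fun i => g i + h i) E n = wsum g E n + wsum h E n := by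
  unfold wsum
  rw [← isum_add (by fun_prop) (by fun_prop)]
  simp only [add_smul]

omit [OA R A] in
theorem wsum_mul (c : R) (hg : DefF N g) (hE : DefF N E) :
    wsum (fun i => c * g i) E n = c • wsum g E n := by
  unfold wsum
  rw [smul_isum c (by fun_prop)]
  simp only [mul_smul]

omit [OA R A] in
theorem wsum_congr (hg : DefF N g) (hh : DefF N h) (hE : DefF N E) (H : ∀ i, i < n → g i = h i) :
    wsum g E n = wsum h E n :=
  isum_congr (by fun_prop) (by fun_prop) fun i hi => by rw [H i hi]

theorem wsum_mono (hg : DefF N g) (hh : DefF N h) (hE : DefF N E) (h0 : ∀ i, 0 ≤ E i)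
    (H : ∀ i, i < n → g i ≤ h i) : wsum g E n ≤ wsum h E n :=
  isum_le_isum (by fun_prop) (by fun_prop) fun i hi => OA.smul_le_smul (H i hi) (h0 i)

end

/-- An approximate spectral resolution of `k` with variance at most `δ`. -/
structure Res (k : A) (δ : R) (n : NN N) (s : NN N → R) (E : NN N → A) : Prop where
  ds : DefF N s
  dE : DefF N E
  pos : ∀ i, 0 ≤ E i
  comm : ∀ i y, Commute k y → Commute (E i) y
  one : wsum (fun _ => (1 : R)) E n = 1
  mean : wsum s E n = k
  var : wsum (fun i => s i * s i) E n ≤ k * k + δ • (1 : A)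

/-- double weighted sum -/
noncomputable def dsum (h : NN N → NN N → R) (E F : NN N → A) (n m : NN N) : A :=
  isum (fun i => isum (fun j => h i j • (E i * F j)) m) n

section

variable {E F : NN N → A} {n m : NN N}

omit [OA R A] in
theorem dsum_prod {u w : NN N → R} (hu : DefF N u) (hw : DefF N w) (hE : DefF N E)
    (hF : DefF N F) : dsum (fun i j => u i * w j) E F n m = wsum u E n * wsum w F m := by
  unfold dsum wsum
  rw [isum_mul _ (by fun_prop)]
  refine isum_congr (by fun_prop) (by fun_prop) fun i _ => ?_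
  rw [mul_isum _ (by fun_prop)]
  refine isum_congr (by fun_prop) (by fun_prop) fun j _ => ?_
  rw [smul_mul_smul_comm]

omit [OA R A] in
theorem dsum_add {h g : NN N → NN N → R} (hh : DefF N (fun p : NN N × NN N => h p.1 p.2))
    (hg : DefF N (fun p : NN N × NN N => g p.1 p.2)) (hE : DefF N E) (hF : DefF N F) :
    dsum (fun i j => h i j + g i j) E F n m = dsum h E F n m + dsum g E F n m := by
  unfold dsum
  rw [← isum_add (by fun_prop) (by fun_prop)]
  refine isum_congr (by fun_prop) (by fun_prop) fun i _ => ?_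
  rw [← isum_add (by fun_prop) (by fun_prop)]
  simp only [add_smul]

theorem dsum_mono {h g : NN N → NN N → R} (hh : DefF N (fun p : NN N × NN N => h p.1 p.2))
    (hg : DefF N (fun p : NN N × NN N => g p.1 p.2)) (hE : DefF N E) (hF : DefF N F)
    (h0 : ∀ i j, 0 ≤ E i * F j) (H : ∀ i j, i < n → j < m → h i j ≤ g i j) :
    dsum h E F n m ≤ dsum g E F n m :=
  isum_le_isum (by fun_prop) (by fun_prop) fun i hi =>
    isum_le_isum (by fun_prop) (by fun_prop) fun j hj => OA.smul_le_smul (H i j hi hj) (h0 i j)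

end

variable {k : A} {δ δ' : R} {n m : NN N} {s t : NN N → R} {E F : NN N → A}

theorem Res.const (r : Res k δ n s E) (c : R) : wsum (fun _ => c) E n = c • (1 : A) := by
  have := wsum_mul (n := n) c (g := fun _ => (1 : R)) (by fun_prop) r.dE
  rw [r.one] at this
  simpa only [mul_one] using this

theorem Res.mul_nonneg (r : Res k δ n s E) (q : Res k δ' m t F) (i j : NN N) : 0 ≤ E i * F j :=
  OA.mul_nonneg N (r.pos i) (q.pos j) (r.comm i _ (q.comm j k (Commute.refl k)).symm)

theorem Res.dsum_le (r : Res k δ n s E) (q : Res k δ' m t F) {ε C : R} (hC : 0 ≤ C) :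
    dsum (fun i j => ε + C * (s i - t j) ^ 2) E F n m ≤ (ε + C * (δ + δ')) • (1 : A) := by
  have h1 := r.ds; have h2 := q.ds; have h3 := r.dE; have h4 := q.dE
  have e : (fun i j => ε + C * (s i - t j) ^ 2) = fun i j => ((fun _ => ε) i * (fun _ => 1) j +
      (fun i => C * (s i * s i)) i * (fun _ => 1) j) + ((fun _ => 1) i *
      (fun j => C * (t j * t j)) j + (fun i => (-2 * C) * s i) i * t j) := by
    funext i j; ring
  rw [e, dsum_add (by fun_prop) (by fun_prop) h3 h4, dsum_add (by fun_prop) (by fun_prop) h3 h4,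
    dsum_add (by fun_prop) (by fun_prop) h3 h4, dsum_prod (by fun_prop) (by fun_prop) h3 h4,
    dsum_prod (by fun_prop) (by fun_prop) h3 h4, dsum_prod (by fun_prop) (by fun_prop) h3 h4,
    dsum_prod (by fun_prop) (by fun_prop) h3 h4, r.const, q.one, r.one,
    wsum_mul C (by fun_prop) h3, wsum_mul C (by fun_prop) h4, wsum_mul _ h1 h3, r.mean, q.mean]
  have a1 := OA.smul_mono hC r.var
  have a2 := OA.smul_mono hC q.var
  have := add_le_add a1 a2
  rw [← sub_nonneg] at this ⊢
  refine this.trans_eq ?_
  simp only [mul_one, one_mul, smul_mul_assoc]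
  module

/-- The basic estimate for two resolutions of the same element. -/
theorem Res.nm_dsum_le (r : Res k δ n s E) (q : Res k δ' m t F) {ε C : R} (hε : 0 ≤ ε)
    (hC : 0 ≤ C) (hδ : 0 ≤ δ + δ') {h : NN N → NN N → R}
    (hh : DefF N (fun p : NN N × NN N => h p.1 p.2))
    (H : ∀ i j, i < n → j < m → |h i j| ≤ ε + C * (s i - t j) ^ 2) :
    nm (dsum h E F n m) ≤ ε + C * (δ + δ') := by
  have h1 := r.ds; have h2 := q.ds; have h3 := r.dE; have h4 := q.dE
  have hb := r.dsum_le q (ε := ε) hC
  refine OA.nm_le _ _ (by positivity) ?_ ((dsum_mono hh (by fun_prop) h3 h4 (r.mul_nonneg q)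
    fun i j hi hj => (le_abs_self _).trans (H i j hi hj)).trans hb)
  have h5 := dsum_mono (h := fun _ _ => (0 : R) * 0)
    (g := fun i j => h i j + (ε + C * (s i - t j) ^ 2)) (n := n) (m := m) (by fun_prop)
    (by fun_prop) h3 h4 (r.mul_nonneg q) fun i j hi hj => by
      linarith [H i j hi hj, neg_abs_le (h i j)]
  rw [dsum_prod (u := fun _ => 0) (w := fun _ => 0) (by fun_prop) (by fun_prop) h3 h4, r.const,
    zero_smul, zero_mul, dsum_add hh (by fun_prop) h3 h4] at h5
  rw [neg_le_iff_add_nonneg]
  exact h5.trans (add_le_add le_rfl hb)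

theorem Res.nm_sub_le (r : Res k δ n s E) (q : Res k δ' m t F) {ε C : R} (hε : 0 ≤ ε)
    (hC : 0 ≤ C) (hδ : 0 ≤ δ + δ') {u w : NN N → R} (hu : DefF N u) (hw : DefF N w)
    (H : ∀ i j, i < n → j < m → |u i - w j| ≤ ε + C * (s i - t j) ^ 2) :
    nm (wsum u E n - wsum w F m) ≤ ε + C * (δ + δ') := by
  have h3 := r.dE; have h4 := q.dE
  have := r.nm_dsum_le q hε hC hδ
    (h := fun i j => u i * (fun _ => 1) j + (fun _ => -1) i * w j) (by fun_prop)
    fun i j hi hj => by simpa only [mul_one, neg_one_mul, ← sub_eq_add_neg] using H i j hi hj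
  rwa [dsum_add (by fun_prop) (by fun_prop) h3 h4, dsum_prod hu (by fun_prop) h3 h4,
    dsum_prod (by fun_prop) hw h3 h4, q.one, r.const, mul_one, neg_smul, one_smul, neg_one_mul,
    ← sub_eq_add_neg] at this

theorem Res.nm_mul_sub_le (r : Res k δ n s E) {ε C : R} (hε : 0 ≤ ε)
    (hC : 0 ≤ C) (hδ : 0 ≤ δ) {u w : NN N → R} (hu : DefF N u) (hw : DefF N w)
    (H : ∀ i j, i < n → j < n → |u i * (w j - w i)| ≤ ε + C * (s i - s j) ^ 2) :
    nm (wsum u E n * wsum w E n - wsum (fun i => u i * w i) E n) ≤ ε + C * (δ + δ) := by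
  have h3 := r.dE
  have := r.nm_dsum_le r hε hC (by positivity)
    (h := fun i j => u i * w j + (fun i => -1 * (u i * w i)) i * (fun _ => 1) j) (by fun_prop)
    fun i j hi hj => by
      simpa only [mul_one, neg_one_mul, ← sub_eq_add_neg, mul_sub] using H i j hi hj
  rwa [dsum_add (by fun_prop) (by fun_prop) h3 h3, dsum_prod hu hw h3 h3,
    dsum_prod (by fun_prop) (by fun_prop) h3 h3, r.one, mul_one, wsum_mul _ (by fun_prop) h3,
    neg_smul, one_smul, ← sub_eq_add_neg] at this

/-! ### The Bernstein family -/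

variable (N) in
/-- the Bernstein family `C(n,i) x^i (1-x)^(n-i)` -/
noncomputable def bern (x : A) (n : NN N) : NN N → A :=
  irec (fun i => if i = 0 then 1 else 0)
    (fun _ e i => (1 - x) * e i + x * if i = 0 then 0 else e (i - 1)) n

omit [IsStrictOrderedRing R] [RF N R] [OA R A] in
include R in
@[fun_prop] theorem defF_bern {α : Type*} [Coded N α] {x : α → A} {n i : α → NN N}
    (hx : DefF N x) (hn : DefF N n) (hi : DefF N i) :
    DefF N (fun a => bern N (x a) (n a) (i a)) := by
  have : DefF N (fun a => bern N (x a) (n a)) := by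
    unfold bern
    exact DefF.irec (by fun_prop) (by fun_prop) hn
  exact this.ap hi

omit [PartialOrder A] in
theorem bern_zero (x : A) (i : NN N) : bern N x 0 i = if i = 0 then 1 else 0 := by
  unfold bern; rw [irec_zero]

omit [IsStrictOrderedRing R] [RF N R] [OA R A] in
include R in
theorem bern_succ (x : A) (n i : NN N) : bern N x (n + 1) i =
    (1 - x) * bern N x n i + x * if i = 0 then 0 else bern N x n (i - 1) := by
  have : Intl N (fun i : NN N => if i = 0 then (1 : A) else 0) := DefF.toIntl (by fun_prop)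
  unfold bern
  rw [irec_succ (by fun_prop)]

omit [IsStrictOrderedRing R] [RF N R] [OA R A] in
include R in
theorem bern_ind {P : A → Prop} (hP : DefF N P) {x : A} (h0 : P 0) (h1 : P 1)
    (hs : ∀ a b, P a → P b → P ((1 - x) * a + x * b)) (n i : NN N) : P (bern N x n i) := by
  refine NN.ind (P := fun n => ∀ i, P (bern N x n i)) (by fun_prop) (fun i => ?_)
    (fun n ih i => ?_) n i
  · rw [bern_zero]; split_ifs; exacts [h1, h0]
  · rw [bern_succ]
    refine hs _ _ (ih i) ?_
    split_ifs; exacts [h0, ih _]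

omit [IsStrictOrderedRing R] [RF N R] [OA R A] in
include R in
theorem bern_eq_zero (x : A) (n i : NN N) (h : n < i) : bern N x n i = 0 := by
  refine NN.ind (P := fun n => ∀ i, n < i → bern N x n i = 0) (by fun_prop) (fun i hi => ?_)
    (fun n ih i hi => ?_) n i h
  · rw [bern_zero, if_neg hi.ne']
  · rcases NN.zero_or_add_one i with rfl | ⟨j, rfl⟩
    · exact absurd hi (NN.not_lt_zero' _)
    · have hj : n < j := lt_of_add_lt_add_right hi
      rw [bern_succ, ih _ (hj.trans (NN.lt_add_one j)),
        if_neg ((NN.zero_le' j).trans_lt (NN.lt_add_one j)).ne',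
        add_tsub_cancel_right, ih j hj, mul_zero, mul_zero, add_zero]

omit [OA R A] in
theorem wsum_bern_succ (x : A) (n : NN N) {g : NN N → R} (hg : DefF N g) :
    wsum g (bern N x (n + 1)) (n + 1 + 1) = (1 - x) * wsum g (bern N x n) (n + 1) +
      x * wsum (fun i => g (i + 1)) (bern N x n) (n + 1) := by
  unfold wsum
  have e1 : isum (fun i => g i • bern N x n i) (n + 1) =
      isum (fun i => g i • bern N x n i) (n + 1 + 1) := by
    rw [isum_succ (n := n + 1) (by fun_prop), bern_eq_zero x n _ (NN.lt_add_one n), smul_zero,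
      add_zero]
  have e2 : isum (fun i => g (i + 1) • bern N x n i) (n + 1) =
      isum (fun i => g i • if i = 0 then 0 else bern N x n (i - 1)) (n + 1 + 1) := by
    rw [isum_succ' (n := n + 1) (by fun_prop), if_pos rfl, smul_zero, zero_add]
    refine isum_congr (by fun_prop) (by fun_prop) fun i _ => ?_
    rw [if_neg ((NN.zero_le' i).trans_lt (NN.lt_add_one i)).ne', add_tsub_cancel_right]
  rw [e1, e2, mul_isum _ (by fun_prop), mul_isum _ (by fun_prop),
    ← isum_add (by fun_prop) (by fun_prop)]
  refine isum_congr (by fun_prop) (by fun_prop) fun i _ => ?_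
  rw [bern_succ, smul_add, mul_smul_comm, mul_smul_comm]

omit [OA R A] in
theorem bern_moments (x : A) (n : NN N) :
    wsum (fun _ => (1 : R)) (bern N x n) (n + 1) = 1 ∧
    wsum (rc R) (bern N x n) (n + 1) = rc R n • x ∧
    wsum (fun i => rc R i * rc R i) (bern N x n) (n + 1) =
      (rc R n * (rc R n - 1)) • (x * x) + rc R n • x := by
  refine NN.ind (P := fun n => wsum (fun _ => (1 : R)) (bern N x n) (n + 1) = 1 ∧
    wsum (rc R) (bern N x n) (n + 1) = rc R n • x ∧
    wsum (fun i => rc R i * rc R i) (bern N x n) (n + 1) =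
      (rc R n * (rc R n - 1)) • (x * x) + rc R n • x) (by fun_prop) ?_ ?_ n
  · unfold wsum
    simp only [zero_add]
    rw [isum_one (by fun_prop), isum_one (by fun_prop), isum_one (by fun_prop)]
    simp [bern_zero]
  · rintro n ⟨h0, h1, h2⟩
    have hb : DefF N (bern N x n) := by fun_prop
    have e1 : wsum (fun i => rc R (i + 1)) (bern N x n) (n + 1) = rc R n • x + 1 := by
      simp only [rc_succ]
      rw [wsum_add (by fun_prop) (by fun_prop) hb, h0, h1]
    have e2 : wsum (fun i => rc R (i + 1) * rc R (i + 1)) (bern N x n) (n + 1) =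
        (rc R n * (rc R n - 1)) • (x * x) + rc R n • x + (2 : R) • rc R n • x + 1 := by
      have : (fun i : NN N => rc R (i + 1) * rc R (i + 1)) =
          fun i => rc R i * rc R i + 2 * rc R i + 1 := by
        funext i; rw [rc_succ]; ring
      rw [this, wsum_add (by fun_prop) (by fun_prop) hb, wsum_add (by fun_prop) (by fun_prop) hb,
        wsum_mul _ (by fun_prop) hb, h0, h1, h2]
    rw [wsum_bern_succ x n (by fun_prop), wsum_bern_succ x n (by fun_prop),
      wsum_bern_succ x n (by fun_prop), h0, h1, h2, e1, e2, rc_succ]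
    refine ⟨by noncomm_ring, ?_, ?_⟩
    · simp only [mul_add, sub_mul, mul_smul_comm, one_mul, mul_one]; module
    · simp only [mul_add, sub_mul, mul_smul_comm, one_mul, mul_one]; module

end Vale.Agent.P070Z
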